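import Vale.Agent.P281.H713.SB.Defs
import Vale.Agent.P281.H713.SA.Iface
import Vale.Agent.P272.K.INT.Global
import Vale.Agent.P299.H882.Energy

/-! P281, theorem SB (`m K_X = M + D`, `M` generated by sections, `k M - D` effective): the blocks of
the proof, as propositions. -/

open scoped Manifold ContDiff Topology ComplexOrder
open Set Vale.Agent.P281.J Vale.Agent.P272.K Vale.Agent.P272.K.AMP

noncomputable section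

namespace Vale.Agent.P281.H713.SB

open Vale.Agent.P299.D Vale.Agent.P281.H713.SA
open Vale.Agent.P299.H882 (J)
open INT (IsClosedForm)

section

variable {n : ℕ} {X : Type} [TopologicalSpace X]

/-- `i∂∂̄φ` -/
def curvB (φ : Chart n X → Cm n → ℝ) : FormM n X := fun e z => cHess (φ e) z

/-- `s θ + α + ε w` -/
def chiB (θ α w : FormM n X) (s ε : ℝ) : FormM n X :=
  fun e z => (s : ℂ) • θ e z + (α e z + (ε : ℂ) • w e z)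

/-- the curvature form of `φ + (1/m) log (Q + δ)` plus `C δ / (Q + δ) w` -/
def thB (w : FormM n X) (φ : Chart n X → Cm n → ℝ) (Q : X → ℝ) (m : ℕ) (C δ : ℝ) : FormM n X :=
  fun e z => cHess (φ e) z + (((m : ℝ)⁻¹ : ℝ) : ℂ) • hess (fun y => Real.log (Q y + δ)) e z +
    ((C * (δ / (Q (e.symm z) + δ)) : ℝ) : ℂ) • w e z

/-- `Q = ∑ |s b|²`, for the metric `φ` on `K_X` -/
def Qn [ChartedSpace (Cm n) X] (φ : Chart n X → Cm n → ℝ) (m : ℕ) {N : ℕ}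
    (s : Fin N → X → ℂ) (x : X) : ℝ :=
  (∑ b, ‖s b x‖ ^ 2) * Real.exp (-(m * φ (chartAt (Cm n) x) (chartAt (Cm n) x x)))

end

/-- **Block XB** (Yau + Bochner, degenerate).  `w` Kähler metric, `φ` metric on `K_X`, `Q ≥ 0`;
for all `δ > 0` the metric `φ_δ = φ + (1/m) log (Q + δ)` on `K_X` has curvature
`≥ - C δ / (Q + δ) w`.  `θ, α ≥ 0` closed, `rank θ ≤ ν`, and
`s c_1(K_X) (s θ + α + ε w)^(n-1) ≤ C' (s θ + α + ε w)^n` for some `ε ∈ (0, 1]`, for all `s ≥ 1`.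
`τ1 = u τ0` proportional holomorphic covariant tensors.  Then `du` vanishes on `ker θ` at the points
where `Q > 0`, `θ` has rank `ν`, `θ + α > 0` and `τ0 ≠ 0`. -/
def XPartB : Prop := ∀ (n q : ℕ) (X : Type) [TopologicalSpace X] [T2Space X] [CompactSpace X]
  [ConnectedSpace X] [ChartedSpace (Cm n) X] [IsManifold 𝓘(ℂ, Cm n) ω X]
  (w : FormM n X) (_ : IsKahler w) (φ : Chart n X → Cm n → ℝ) (_ : IsCanonicalMetric φ)
  (Q : X → ℝ) (_ : SmoothFn (n := n) Q) (_ : ∀ x, 0 ≤ Q x) (m : ℕ) (_ : 0 < m) (C : ℝ)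
  (_ : ∀ δ : ℝ, 0 < δ → ∀ e x, At e x → (thB w φ Q m C δ e (e x)).PosSemidef)
  (θ α : FormM n X) (_ : IsClosedForm θ) (_ : IsClosedForm α)
  (_ : ∀ e x, At e x → (θ e (e x)).PosSemidef) (_ : ∀ e x, At e x → (α e (e x)).PosSemidef)
  (ν : ℕ) (_ : ∀ e x, At e x → (θ e (e x)).rank ≤ ν) (C' : ℝ)
  (_ : ∀ s : ℝ, 1 ≤ s → ∃ ε : ℝ, 0 < ε ∧ ε ≤ 1 ∧
    s * J (chiB θ α w s ε) (trX (chiB θ α w s ε) (curvB φ)) ≤
      C' * J (chiB θ α w s ε) (fun _ => 1))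
  (τ0 τ1 : Ten n q X) (_ : IsTen q 0 τ0) (_ : IsTen q 0 τ1)
  (_ : ∀ e x, At e x → ∀ I J, τ0 e (e x) I * τ1 e (e x) J = τ0 e (e x) J * τ1 e (e x) I)
  (e : Chart n X) (x : X) (_ : At e x) (_ : 0 < Q x) (I : Fin q → Fin n) (_ : τ0 e (e x) I ≠ 0)
  (_ : (θ e (e x)).rank = ν) (_ : (θ e (e x) + α e (e x)).PosDef) (v : Cm n)
  (_ : ∀ j, ∑ i, v i * θ e (e x) i j = 0),
  fderiv ℂ (fun z => τ1 e z I / τ0 e z I) (e x) v = 0

/-- **Block MA**: the metrics `φ + (1/m) log (∑ |s b|² + δ)` on `K_X`. -/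
def MetricPartA : Prop := ∀ (n : ℕ) (X : Type) [TopologicalSpace X] [T2Space X] [CompactSpace X]
  [ChartedSpace (Cm n) X] [IsManifold 𝓘(ℂ, Cm n) ω X] (w : FormM n X) (_ : IsKahler w)
  (φ : Chart n X → Cm n → ℝ) (_ : IsCanonicalMetric φ) (m N : ℕ) (_ : 0 < m)
  (s : Fin N → X → ℂ) (_ : ∀ b, IsPluri (n := n) m (s b)),
  SmoothFn (n := n) (Qn φ m s) ∧ ∃ C : ℝ, ∀ δ : ℝ, 0 < δ → ∀ e x, At e x →
    (thB w φ (Qn φ m s) m C δ e (e x)).PosSemidef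

/-- **Block MZ**: the curvature form `θ` of the metric `(1/m) log ∑ |a b|²` on `M / m`. -/
def MetricPartZ : Prop := ∀ (n : ℕ) (X : Type) [TopologicalSpace X] [ConnectedSpace X]
  [ChartedSpace (Cm n) X] [IsManifold 𝓘(ℂ, Cm n) ω X]
  (φ : Chart n X → Cm n → ℝ) (_ : IsCanonicalMetric φ) (m k N : ℕ) (_ : 0 < m)
  (s : Fin N → X → ℂ) (S : X → ℂ) (_ : IsMovFix (Cm n) m k s S) (_ : ∃ x, S x ≠ 0),
  ∃ θ : FormM n X, IsClosedForm θ ∧ (∀ e x, At e x → (θ e (e x)).PosSemidef) ∧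
    (∀ e x, At e x → 0 < Qn φ m s x → θ e (e x) = cHess (φ e) (e x) +
      (((m : ℝ)⁻¹ : ℝ) : ℂ) • hess (fun y => Real.log (Qn φ m s y)) e (e x)) ∧
    ∀ e x, At e x → ∀ b₀, s b₀ x ≠ 0 → ∀ v : Cm n,
      (∀ j, ∑ i, v i * θ e (e x) i j = 0) ↔
        ∀ b, fderiv ℂ (fun z => s b (e.symm z) / s b₀ (e.symm z)) (e x) v = 0

/-- **Block DEG**: `c_1(K_X) χ^(n-1) ≤ (1 + k) θ χ^(n-1)` for all Kähler classes `χ`, since
`m ((1 + k) θ - c_1(K_X)) = k M - D` is effective. -/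
def DegPart : Prop := ∀ (n : ℕ) (X : Type) [TopologicalSpace X] [T2Space X] [CompactSpace X]
  [ConnectedSpace X] [ChartedSpace (Cm n) X] [IsManifold 𝓘(ℂ, Cm n) ω X]
  (φ : Chart n X → Cm n → ℝ) (_ : IsCanonicalMetric φ) (m k N : ℕ) (_ : 0 < m)
  (s : Fin N → X → ℂ) (S : X → ℂ) (_ : IsMovFix (Cm n) m k s S) (_ : ∃ x, S x ≠ 0)
  (θ : FormM n X) (_ : IsClosedForm θ)
  (_ : ∀ e x, At e x → 0 < Qn φ m s x → θ e (e x) = cHess (φ e) (e x) +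
      (((m : ℝ)⁻¹ : ℝ) : ℂ) • hess (fun y => Real.log (Qn φ m s y)) e (e x))
  (χ : FormM n X) (_ : IsKahler χ),
  J χ (trX χ (curvB φ)) ≤ (1 + k) * J χ (trX χ θ)

/-- **Block RB** (adjunction). -/
def RestrPartB : Prop := ∀ (n p d : ℕ) (_ : n = p + d) (Z Y F : Type)
  [TopologicalSpace Z] [ChartedSpace (Cm n) Z] [IsManifold 𝓘(ℂ, Cm n) ω Z]
  [TopologicalSpace Y] [ChartedSpace (Cm p) Y] [IsManifold 𝓘(ℂ, Cm p) ω Y]
  [TopologicalSpace F] [ChartedSpace (Cm d) F] [IsManifold 𝓘(ℂ, Cm d) ω F]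
  (f : Z → Y) (_ : ContMDiff 𝓘(ℂ, Cm n) 𝓘(ℂ, Cm p) ω f)
  (i : F → Z) (_ : IsSmoothFibre (Cm n) (Cm p) (Cm d) f i),
  ∃ G : F → ℂ, (∀ t, G t ≠ 0) ∧ ∀ t₀, ∃ η : F → ℂ, HolAt (Cm d) η t₀ ∧ η t₀ ≠ 0 ∧
    ∀ᶠ t in 𝓝 t₀, ContinuousLinearMap.det
        (mfderiv 𝓘(ℂ, Cm n) 𝓘(ℂ, Cm n) (chartAt (Cm n) (i t₀)) (i t) : Cm n →L[ℂ] Cm n) * G t =
      η t * ContinuousLinearMap.det
        (mfderiv 𝓘(ℂ, Cm d) 𝓘(ℂ, Cm d) (chartAt (Cm d) t₀) t : Cm d →L[ℂ] Cm d)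

/-- **Theorem SB**. -/
def MainPartB : Prop := ∀ (n p d : ℕ) (_ : n = p + d) (X Z Y F : Type)
  [TopologicalSpace X] [T2Space X] [CompactSpace X] [ConnectedSpace X]
  [ChartedSpace (Cm n) X] [IsManifold 𝓘(ℂ, Cm n) ω X]
  [TopologicalSpace Z] [ChartedSpace (Cm n) Z] [IsManifold 𝓘(ℂ, Cm n) ω Z]
  [TopologicalSpace Y] [T2Space Y] [ConnectedSpace Y]
  [ChartedSpace (Cm p) Y] [IsManifold 𝓘(ℂ, Cm p) ω Y]
  [TopologicalSpace F] [T2Space F] [CompactSpace F] [ConnectedSpace F]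
  [ChartedSpace (Cm d) F] [IsManifold 𝓘(ℂ, Cm d) ω F]
  (χ : Chart n X → Cm n → Matrix (Fin n) (Fin n) ℂ) (_ : IsKahler χ)
  (m k N : ℕ) (_ : 0 < m) (s : Fin N → X → ℂ) (S : X → ℂ) (_ : IsMovFix (Cm n) m k s S)
  (j : Z → X) (_ : IsBigOpen (Cm n) j) (f : Z → Y) (_ : ContMDiff 𝓘(ℂ, Cm n) 𝓘(ℂ, Cm p) ω f)
  (𝒢 : Set (Set Y)) (_ : IsDivisorial (Cm n) (Cm p) f 𝒢)
  (_ : ∀ G, orbBase' (Cm n) (Cm p) f 0 G ≠ 0 → G ∈ 𝒢)
  (i : F → Z) (_ : IsSmoothFibre (Cm n) (Cm p) (Cm d) f i) (_ : ∃ t, S (j (i t)) ≠ 0),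
  kod (Cm d) (fun (C : Set F) x g => IsLocalEq (Cm d) C g x) 0 +
    kod (Cm p) (fun (G : Set Y) y g => IsLocalEq (Cm p) G g y) (orbBase' (Cm n) (Cm p) f 0) ≤
    kod (Cm n) (fun (D : Set X) x g => IsLocalEq (Cm n) D g x) 0

end Vale.Agent.P281.H713.SB
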