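import Vale.Agent.P281.H713.SB.Iface
import Vale.Agent.P281.H713.SA.G5

/-! P281, theorem SB, main part: restriction of the sections, rank of `θ`. -/

open scoped Manifold ContDiff Topology ComplexOrder
open Set Filter Metric Vale.Agent.P281.J Vale.Agent.P272.K

noncomputable section

namespace Vale.Agent.P281.H713.SB

open Vale.Agent.P281 Vale.Agent.P281.MF Vale.Agent.P281.ISO Vale.Agent.P299.D
open Vale.Agent.P281.H713.SA
open INT (IsClosedForm)

set_option linter.unusedSectionVars false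

section Mov

variable {n : ℕ} {X : Type} [TopologicalSpace X] [ChartedSpace (Cm n) X]
  [IsManifold 𝓘(ℂ, Cm n) ω X] {m k N : ℕ} {s : Fin N → X → ℂ} {S : X → ℂ}

theorem mf_pluri (h : IsMovFix (Cm n) m k s S) (b : Fin N) : IsPluri (n := n) m (s b) := by
  intro x
  obtain ⟨g, c, a, hg, hc, ha, -, hev⟩ := h x
  refine ⟨∅, fun _ _ => 0, fun z => g z * a b z, fun i hi => absurd rfl hi,
    fun i hi => absurd hi (Finset.notMem_empty i), HolV.mul hg (ha b), ?_⟩
  filter_upwards [hev] with z hz _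
  rw [Finset.prod_empty, mul_one]
  exact hz.1 b

theorem mf_pluriS (h : IsMovFix (Cm n) m k s S) : IsPluri (n := n) (k * m) S := by
  intro x
  obtain ⟨g, c, a, hg, hc, ha, -, hev⟩ := h x
  refine ⟨∅, fun _ _ => 0, fun z => g z ^ (k + 1) * c z, fun i hi => absurd rfl hi,
    fun i hi => absurd hi (Finset.notMem_empty i), HolV.mul (HolV.pow hg _) hc, ?_⟩
  filter_upwards [hev] with z hz _
  rw [Finset.prod_empty, mul_one]
  exact hz.2

theorem mf_ne (h : IsMovFix (Cm n) m k s S) {x : X} (hx : S x ≠ 0) : ∃ b, s b x ≠ 0 := by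
  obtain ⟨g, c, a, hg, hc, ha, ⟨b, hb⟩, hev⟩ := h x
  have h1 := hev.self_of_nhds
  have hg0 : g x ≠ 0 := by
    intro h0
    apply hx
    rw [h1.2, h0, zero_pow (Nat.succ_ne_zero k), zero_mul, zero_mul]
  refine ⟨b, ?_⟩
  rw [h1.1 b]
  exact mul_ne_zero (mul_ne_zero hg0 hb)
    (pow_ne_zero _ (jac_chart_ne_zero (mem_chart_source (Cm n) x)))

theorem dense_ne [PreconnectedSpace X] (h : IsMovFix (Cm n) m k s S) (hS : ∃ x, S x ≠ 0) :
    Dense {x | ∃ b, s b x ≠ 0} := by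
  have h1 := open_dense_ne (E₀ := Cm n) (κ := 0) (by simp)
    (fun C hC => (zero_poles C hC).elim) (mf_pluriS h)
    (by
      obtain ⟨x, hx⟩ := hS
      exact ⟨x, fun C hC => (zero_poles C hC).elim, hx⟩)
  refine h1.2.mono ?_
  rintro x ⟨-, hx⟩
  exact mf_ne h hx

theorem isOpen_ne (h : ∀ b, IsPluri (n := n) m (s b)) : IsOpen {x | ∃ b, s b x ≠ 0} := by
  rw [isOpen_iff_mem_nhds]
  rintro x ⟨b, hb⟩
  filter_upwards [(secAt_pluri (h b) x).ev_ne hb] with y hy
  exact ⟨b, hy⟩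

/-- restriction to a fibre -/
theorem mf_restr {d : ℕ} {F : Type} [TopologicalSpace F] [ChartedSpace (Cm d) F]
    [IsManifold 𝓘(ℂ, Cm d) ω F] (h : IsMovFix (Cm n) m k s S) {i : F → X}
    (hi : ∀ t, HolM (Cm d) (Cm n) i t) {G : F → ℂ}
    (hG : ∀ t₀, ∃ η : F → ℂ, HolAt (Cm d) η t₀ ∧ η t₀ ≠ 0 ∧
      ∀ᶠ t in 𝓝 t₀, ContinuousLinearMap.det
        (mfderiv 𝓘(ℂ, Cm n) 𝓘(ℂ, Cm n) (chartAt (Cm n) (i t₀)) (i t) : Cm n →L[ℂ] Cm n) * G t =
      η t * ContinuousLinearMap.det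
        (mfderiv 𝓘(ℂ, Cm d) 𝓘(ℂ, Cm d) (chartAt (Cm d) t₀) t : Cm d →L[ℂ] Cm d)) :
    IsMovFix (Cm d) m k (fun b t => s b (i t) * G t ^ m) (fun t => S (i t) * G t ^ (k * m)) := by
  intro t₀
  obtain ⟨g, c, a, hg, hc, ha, ⟨b, hb⟩, hev⟩ := h (i t₀)
  obtain ⟨η, hη, hη0, hηe⟩ := hG t₀
  refine ⟨fun t => g (i t), fun t => c (i t) * η t ^ (k * m), fun b t => a b (i t) * η t ^ m,
    HolV.comp (h := g) hg (hi t₀), HolV.mul (HolV.comp (h := c) hc (hi t₀)) (HolV.pow hη _),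
    fun b => HolV.mul (HolV.comp (h := a b) (ha b) (hi t₀)) (HolV.pow hη _),
    ⟨b, mul_ne_zero hb (pow_ne_zero _ hη0)⟩, ?_⟩
  filter_upwards [hηe, (hi t₀).continuousAt.eventually hev] with t h1 h2
  refine ⟨fun b => ?_, ?_⟩
  · show s b (i t) * G t ^ m = _
    rw [h2.1 b, mul_assoc, ← mul_pow, h1, mul_pow]
    ring
  · show S (i t) * G t ^ (k * m) = _
    rw [h2.2, mul_assoc, ← mul_pow, h1, mul_pow]
    ring

end Mov

section Rank

variable {n : ℕ} {X : Type} [TopologicalSpace X] [ChartedSpace (Cm n) X]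
  [IsManifold 𝓘(ℂ, Cm n) ω X]
variable {m N : ℕ} {s : Fin N → X → ℂ} (hs : ∀ b, IsPluri (n := n) m (s b)) {θ : FormM n X}
  (hker : ∀ e x, At e x → ∀ b₀, s b₀ x ≠ 0 → ∀ v : Cm n,
      (∀ j, ∑ i, v i * θ e (e x) i j = 0) ↔
        ∀ b, fderiv ℂ (fun z => s b (e.symm z) / s b₀ (e.symm z)) (e x) v = 0)

include hs hker in
theorem rank_eqB {e : Chart n X} {x : X} (he : At e x) {b₀ : Fin N} (h0 : s b₀ x ≠ 0) :
    (θ e (e x)).rank = Module.finrank ℂ (Submodule.span ℂ (range (al (n := n) s b₀ x))) := by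
  have h1 : Submodule.span ℂ (range (mcov (θ e (e x)))) = Submodule.span ℂ (range fun b =>
      fderiv ℂ (fun z => s b (e.symm z) / s b₀ (e.symm z)) (e x)) := by
    apply le_antisymm
    · refine span_le_of_ker fun v hv j => ?_
      rw [mcov_apply]
      exact (hker e x he b₀ h0 v).2 hv j
    · refine span_le_of_ker fun v hv b => ?_
      refine (hker e x he b₀ h0 v).1 (fun j => ?_) b
      rw [← mcov_apply]
      exact hv j
  have h2 : al (n := n) s b₀ x = fun b =>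
      (fderiv ℂ (fun z => s b (e.symm z) / s b₀ (e.symm z)) (e x)).comp
        (dV (Cm n) (e : X → Cm n) x) := by
    funext b
    ext ξ
    exact al_apply hs he h0 b ξ
  rw [← finrank_mcov, h1, h2, finrank_span_comp _ (surj_of_isUnit (isUnit_at he))]

/-- the rank is lower semicontinuous -/
theorem rank_lsc (hθ : IsClosedForm θ) {e : Chart n X} {x : X} (he : At e x) {r : ℕ}
    (hr : r ≤ (θ e (e x)).rank) : ∀ᶠ y in 𝓝 x, r ≤ (θ e (e y)).rank := by
  rw [← finrank_mcov] at hr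
  obtain ⟨c, hc⟩ := exists_li_sub hr
  obtain ⟨K, hK⟩ := (li_iff_minor _).1 hc
  have h1 : ContinuousAt (fun y => (mC (fun b => mcov (θ e (e y)) (c b)) K).det) x := by
    refine (Continuous.matrix_det continuous_id).continuousAt.comp ?_
    refine continuousAt_pi.2 fun a => continuousAt_pi.2 fun b => ?_
    have h2 : (fun y => (mC (fun b => mcov (θ e (e y)) (c b)) K) a b) =
        fun y => θ e (e y) (K b) (c a) := by
      funext y
      show mcov (θ e (e y)) (c a) (Pi.single (K b) 1) = _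
      rw [mcov_apply]
      simp [Pi.single_apply]
    show ContinuousAt (fun y => (mC (fun b => mcov (θ e (e y)) (c b)) K) a b) x
    rw [h2]
    exact ContinuousAt.comp (g := fun z => θ e z (K b) (c a)) (hθ.smooth e x he _ _).continuousAt
      (e.continuousAt he.2)
  filter_upwards [h1.eventually_ne hK] with y hy
  have h3 : LinearIndependent ℂ fun b => mcov (θ e (e y)) (c b) := (li_iff_minor _).2 ⟨K, hy⟩
  have h4 := li_card_le (α := mcov (θ e (e y))) (fun v hv b => hv (c b)) h3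
  rwa [Fintype.card_fin, finrank_mcov] at h4

include hs hker in
/-- the set of the points where the rank is maximal -/
theorem exists_maxB [PreconnectedSpace X] (hθ : IsClosedForm θ)
    (hne : Dense {x | ∃ b, s b x ≠ 0}) (hX : Nonempty X) :
    ∃ (ν : ℕ) (R : Set X), IsOpen R ∧ Dense R ∧ (∀ x ∈ R, ∃ b, s b x ≠ 0) ∧
      (∀ e x, At e x → (θ e (e x)).rank ≤ ν) ∧
      ∀ e x, At e x → x ∈ R → (θ e (e x)).rank = ν := by
  classical
  set P : ℕ → Prop := fun r => ∃ e x, At (n := n) (X := X) e x ∧ (∃ b, s b x ≠ 0) ∧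
    (θ e (e x)).rank = r with hP
  have hPn : ∀ r, P r → r ≤ n := by
    rintro r ⟨e, x, -, -, rfl⟩
    simpa using Matrix.rank_le_card_width (θ e (e x))
  obtain ⟨x₀, hx₀⟩ := hne.nonempty
  have hPex : P (θ (chartAt (Cm n) x₀) (chartAt (Cm n) x₀ x₀)).rank :=
    ⟨_, _, ⟨chart_mem_atlas (Cm n) x₀, mem_chart_source (Cm n) x₀⟩, hx₀, rfl⟩
  set ν := Nat.findGreatest P n with hν
  have hPν : P ν := Nat.findGreatest_spec (hPn _ hPex) hPex
  have hmax' : ∀ e x, At (n := n) (X := X) e x → (∃ b, s b x ≠ 0) → (θ e (e x)).rank ≤ ν :=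
    fun e x h hb => Nat.le_findGreatest (hPn _ ⟨e, x, h, hb, rfl⟩) ⟨e, x, h, hb, rfl⟩
  have hmax : ∀ e x, At (n := n) (X := X) e x → (θ e (e x)).rank ≤ ν := by
    intro e x h
    by_contra hcon
    rw [not_le] at hcon
    have h1 := rank_lsc hθ h (r := ν + 1) hcon
    have h2 : ∃ᶠ y in 𝓝 x, y ∈ {x | ∃ b, s b x ≠ 0} := mem_closure_iff_frequently.1 (hne x)
    obtain ⟨y, hy1, hy2, hy3⟩ := (h2.and_eventually
      (h1.and (e.open_source.mem_nhds h.2))).exists
    have h4 := hmax' e y ⟨h.1, hy3⟩ hy1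
    omega
  obtain ⟨e, x, he, ⟨b₀, h0⟩, hr⟩ := hPν
  rw [rank_eqB hs hker he h0] at hr
  obtain ⟨c, hc⟩ := exists_li_sub (α := al (n := n) s b₀ x) (r := ν) hr.ge
  set s' : Fin (ν + 1) → X → ℂ := Fin.cons (s b₀) fun b => s (c b) with hs'
  have hsec : ∀ b, IsPluri (n := n) m (s' b) := by
    intro b
    refine Fin.cases ?_ (fun b => ?_) b
    · exact hs b₀
    · exact hs (c b)
  have hod := ind_open_dense (n := n) (κ := 0) (s := s')
    (by simp) (fun C hC => (zero_poles C hC).elim) hsec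
    ⟨x, fun C hC => (zero_poles C hC).elim, h0, hc⟩
  refine ⟨ν, _, hod.1, hod.2, fun x hx => ⟨b₀, hx.2.1⟩, hmax, ?_⟩
  rintro e' x' he' ⟨-, h1, h2⟩
  refine le_antisymm (hmax e' x' he') ?_
  rw [rank_eqB hs hker he' (b₀ := b₀) h1]
  have h3 := li_card_le (α := al (n := n) s b₀ x') (β := fun b : Fin ν => al (n := n) s b₀ x' (c b))
    (fun v hv b => hv (c b)) h2
  simpa using h3

end Rank

end Vale.Agent.P281.H713.SB
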