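import Vale.Agent.P281.H713.SA.Defs

namespace Vale.Agent.P281.H713

open scoped Manifold ContDiff Topology
open Set Vale.Agent.P281.J

universe u

section

variable (E : Type) [NormedAddCommGroup E] [NormedSpace ℂ E]
variable {X : Type u} [TopologicalSpace X] [ChartedSpace E X]

/-- `m K_X = M + D`, where the line bundle `M` is generated by finitely many global sections `a b`,
`D` is effective, `s b = g * a b` (`g` a local equation of `D`), and `k M - D` is effective: `S` is a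
section of `k m K_X` with `div S ≥ (k + 1) D`, that is, `S = g ^ (k + 1) * c`. -/
def IsMovFix (m k : ℕ) {N : ℕ} (s : Fin N → X → ℂ) (S : X → ℂ) : Prop :=
  ∀ x : X, ∃ (g c : X → ℂ) (a : Fin N → X → ℂ), HolAt E g x ∧ HolAt E c x ∧
    (∀ b, HolAt E (a b) x) ∧ (∃ b, a b x ≠ 0) ∧ ∀ᶠ z in 𝓝 x,
      (∀ b, s b z = g z * a b z *
        ContinuousLinearMap.det (mfderiv 𝓘(ℂ, E) 𝓘(ℂ, E) (chartAt E x) z : E →L[ℂ] E) ^ m) ∧
      S z = g z ^ (k + 1) * c z *
        ContinuousLinearMap.det (mfderiv 𝓘(ℂ, E) 𝓘(ℂ, E) (chartAt E x) z : E →L[ℂ] E) ^ (k * m)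

end

end Vale.Agent.P281.H713
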