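import Vale.Agent.P281.H713.SB.S4
import Vale.Agent.P281.H713.SA.Main
import Vale.Agent.P281.H156.SB.XB
import Vale.Agent.P281.H455.SB.MZ
import Vale.Agent.P281.H787.MA
import Vale.Agent.P281.H787.RB
import Vale.Agent.P281.H227.SB.Deg

/-! P281, theorem SB. -/

noncomputable section

namespace Vale.Agent.P281.H713.SB

open Vale.Agent.P281.H713.SA

/-- **Theorem SB.** -/
theorem mainPartB : MainPartB :=
  main_ofB H156.SB.xPartB H787.metricPartA H455.SB.metricPartZ H227.SB.degPart
    H787.restrPartB H167.SA.pullPart tensorPart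

end Vale.Agent.P281.H713.SB
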