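import Vale.Agent.P281.H713.SB.S1
import Vale.Agent.P299.H882.Family

/-! P281, theorem SB, main part: the numerical hypothesis for `α = w`. -/

open scoped Manifold ContDiff Topology ComplexOrder
open Set Filter Metric Vale.Agent.P281.J Vale.Agent.P272.K Vale.Agent.P272.K.AMP

noncomputable section

namespace Vale.Agent.P281.H713.SB

open Vale.Agent.P281.H713.SA Vale.Agent.P299.H882 Vale.Agent.P299.D
open INT (IsClosedForm)

set_option linter.unusedSectionVars false

variable {n : ℕ} {X : Type} [TopologicalSpace X] [ChartedSpace (Cm n) X]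
  [IsManifold 𝓘(ℂ, Cm n) ω X] {w θ α χ : FormM n X}

theorem smulC (h : IsClosedForm θ) (c : ℝ) : IsClosedForm fun e z => (c : ℂ) • θ e z :=
  h.smul (c : ℂ)

theorem closed_chiB (hw : IsClosedForm w) (hθ : IsClosedForm θ) (hα : IsClosedForm α) (s ε : ℝ) :
    IsClosedForm (chiB θ α w s ε) :=
  (hθ.smul (s : ℂ)).add (hα.add (hw.smul (ε : ℂ)))

theorem posSemidef_ofReal_smul {A : Matrix (Fin n) (Fin n) ℂ} (hA : A.PosSemidef) {c : ℝ}
    (hc : 0 ≤ c) : ((c : ℂ) • A).PosSemidef := hA.smul (by exact_mod_cast hc)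

theorem kahler_chiB (hw : IsKahler w) (hθ : IsClosedForm θ) (hα : IsClosedForm α)
    (hθ0 : ∀ e x, At e x → (θ e (e x)).PosSemidef) (hα0 : ∀ e x, At e x → (α e (e x)).PosSemidef)
    {s ε : ℝ} (hs : 0 ≤ s) (hε : 0 < ε) : IsKahler (chiB θ α w s ε) := by
  refine isKahler_of_closed' (closed_chiB (INT.IsKahler.isClosedForm hw) hθ hα s ε)
    fun e x hx => ?_
  have h1 : ((ε : ℂ) • w e (e x)).PosDef := (hw.posDef e x hx).smul (by exact_mod_cast hε)
  exact Matrix.PosDef.posSemidef_add (posSemidef_ofReal_smul (hθ0 e x hx) hs)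
    (Matrix.PosDef.posSemidef_add (hα0 e x hx) h1)

variable [T2Space X] [CompactSpace X]

/-- `s θ χ^(n-1) ≤ χ^n` if `s θ ≤ χ` -/
theorem tr_le (hχ : IsKahler χ) (hθ : IsClosedForm θ)
    {s : ℝ} (hle : ∀ e x, At e x → (χ e (e x) - (s : ℂ) • θ e (e x)).PosSemidef) :
    s * Vale.Agent.P299.H882.J χ (trX χ θ) ≤ n * Vale.Agent.P299.H882.J χ (fun _ => 1) := by
  have hχH := hχ.toIsHermitian
  have cτ : Continuous (trX χ θ) := sm_continuous (smoothFn_trX hχH hθ.form hθ.smooth)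
  have h1 : ∀ x, s * trX χ θ x ≤ n * 1 := by
    intro x
    have hx := at_chartAt (n := n) x
    rw [trX_eq hχH hθ.form hx]
    have hP := hχH.posDef _ x hx
    have hdet : IsUnit (χ (chartAt (Cm n) x) (chartAt (Cm n) x x)).det :=
      (isUnit_iff_ne_zero.2 hP.det_pos.ne')
    have h2 := (Complex.le_def.1 (C2.trace_mul_nonneg hP.inv.posSemidef (hle _ x hx))).1
    rw [Matrix.mul_sub, Matrix.trace_sub, Matrix.nonsing_inv_mul _ hdet, Matrix.trace_one,
      Matrix.mul_smul, Matrix.trace_smul] at h2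
    simp only [Complex.zero_re, Complex.sub_re, smul_eq_mul, Complex.re_ofReal_mul,
      Fintype.card_fin, Complex.natCast_re] at h2
    unfold trE
    linarith
  have c1 : Continuous fun x : X => s * trX χ θ x := continuous_const.mul cτ
  have c2 : Continuous fun x : X => (n : ℝ) * 1 := continuous_const
  have h2 := J_mono hχH c1 c2 h1
  rwa [J_const_mul, J_const_mul] at h2

theorem numer_bound (hw : IsKahler w) (hθ : IsClosedForm θ)
    (hθ0 : ∀ e x, At e x → (θ e (e x)).PosSemidef) {φ : Chart n X → Cm n → ℝ} {k : ℕ}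
    (hdeg : ∀ χ : FormM n X, IsKahler χ →
      Vale.Agent.P299.H882.J χ (trX χ (curvB φ)) ≤
        (1 + k) * Vale.Agent.P299.H882.J χ (trX χ θ)) :
    ∀ s : ℝ, 1 ≤ s → ∃ ε : ℝ, 0 < ε ∧ ε ≤ 1 ∧
      s * Vale.Agent.P299.H882.J (chiB θ w w s ε) (trX (chiB θ w w s ε) (curvB φ)) ≤
        ((1 + k) * n) * Vale.Agent.P299.H882.J (chiB θ w w s ε) (fun _ => 1) := by
  intro s hs
  have hs0 : 0 ≤ s := zero_le_one.trans hs
  have hw0 : ∀ e x, At e x → (w e (e x)).PosSemidef := fun e x h => (hw.posDef e x h).posSemidef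
  have hχ := kahler_chiB hw hθ (INT.IsKahler.isClosedForm hw) hθ0 hw0 hs0 one_pos
  refine ⟨1, one_pos, le_rfl, ?_⟩
  have h1 := hdeg _ hχ
  have h2 := tr_le (s := s) hχ hθ (fun e x hx => by
    have h3 : chiB θ w w s 1 e (e x) - (s : ℂ) • θ e (e x) =
        w e (e x) + ((1 : ℝ) : ℂ) • w e (e x) := by
      unfold chiB
      abel
    rw [h3]
    exact (hw0 e x hx).add (posSemidef_ofReal_smul (hw0 e x hx) zero_le_one))
  have hk : (0 : ℝ) ≤ 1 + k := by positivity
  calc s * Vale.Agent.P299.H882.J (chiB θ w w s 1) (trX (chiB θ w w s 1) (curvB φ))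
      ≤ s * ((1 + k) * Vale.Agent.P299.H882.J (chiB θ w w s 1) (trX (chiB θ w w s 1) θ)) :=
        mul_le_mul_of_nonneg_left h1 hs0
    _ = (1 + k) * (s * Vale.Agent.P299.H882.J (chiB θ w w s 1)
        (trX (chiB θ w w s 1) θ)) := by ring
    _ ≤ (1 + k) * (n * Vale.Agent.P299.H882.J (chiB θ w w s 1) (fun _ => 1)) :=
        mul_le_mul_of_nonneg_left h2 hk
    _ = _ := by ring

end Vale.Agent.P281.H713.SB
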