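import Vale.Agent.P281.H713.SB.S2

/-! P281, theorem SB, main part: pulled back sections are constant along the kernel of `θ`. -/

open scoped Manifold ContDiff Topology ComplexOrder
open Set Filter Metric Vale.Agent.P281.J Vale.Agent.P272.K Vale.Agent.P272.K.AMP

noncomputable section

namespace Vale.Agent.P281.H713.SB

open Vale.Agent.P281 Vale.Agent.P281.MF Vale.Agent.P281.ISO Vale.Agent.P299.D
open Vale.Agent.P281.H713.SA
open INT (IsClosedForm)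

set_option linter.unusedSectionVars false

section Good

variable {n p : ℕ} {X Z Y : Type} [TopologicalSpace X] [ChartedSpace (Cm n) X]
  [IsManifold 𝓘(ℂ, Cm n) ω X] [TopologicalSpace Z] [ChartedSpace (Cm n) Z]
  [IsManifold 𝓘(ℂ, Cm n) ω Z] [TopologicalSpace Y] [ChartedSpace (Cm p) Y]
  [IsManifold 𝓘(ℂ, Cm p) ω Y]

/-- quotients of pulled back sections, from quotients of tensors -/
theorem const_of_ten (hT : TensorPart)
    {j : Z → X} (hj : J.IsBigOpen (Cm n) j) {f : Z → Y}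
    (hf : ContMDiff 𝓘(ℂ, Cm n) 𝓘(ℂ, Cm p) ω f) {𝒢 : Set (Set Y)}
    (h𝒢 : J.IsDivisorial (Cm n) (Cm p) f 𝒢) {m : ℕ} {k : Set Y → ℕ}
    (hk : ∀ G, (k G : ℝ) ≤ m * J.orbBase' (Cm n) (Cm p) f 0 G) (hkG : ∀ G, k G ≠ 0 → G ∈ 𝒢)
    {σ₀ σ₁ : Y → ℂ}
    (hσ₀ : J.IsSection (Cm p) (fun (D : Set Y) z g => J.IsLocalEq (Cm p) D g z) m k σ₀)
    (hσ₁ : J.IsSection (Cm p) (fun (D : Set Y) z g => J.IsLocalEq (Cm p) D g z) m k σ₁)
    {z₂ : Z} (hz₂ : f z₂ ∉ ⋃₀ 𝒢) (hsub : Function.Surjective (dM (Cm n) (Cm p) f z₂))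
    (h0 : σ₀ (f z₂) ≠ 0) {e : Chart n X} (he : At e (j z₂)) {ξ : Cm n}
    (hX : ∀ (q : ℕ) (τ₀ τ₁ : Ten n q X), IsTen q 0 τ₀ → IsTen q 0 τ₁ →
      (∀ e x, At e x → ∀ I J, τ₀ e (e x) I * τ₁ e (e x) J = τ₀ e (e x) J * τ₁ e (e x) I) →
      ∀ I, τ₀ e (e (j z₂)) I ≠ 0 →
        fderiv ℂ (fun z => τ₁ e z I / τ₀ e z I) (e (j z₂))
          (dV (Cm n) (fun z => e (j z)) z₂ ξ) = 0) :
    dif (Cm n) (fun z => σ₁ (f z) / σ₀ (f z)) z₂ ξ = 0 := by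
  have hΩ := dense_good hj hf h𝒢
  obtain ⟨q, T, hT0, hTσ⟩ := hT n p X Z Y j hj f hf 𝒢 h𝒢 m k hk hkG
  obtain ⟨τ₀, hτ₀, hτ₀e⟩ := hTσ σ₀ hσ₀
  obtain ⟨τ₁, hτ₁, hτ₁e⟩ := hTσ σ₁ hσ₁
  have hcont : ∀ {τ : Ten n q X}, IsTen q 0 τ → ∀ {e : Chart n X} {x : X}, At e x → ∀ I,
      ContinuousAt (fun y => τ e (e y) I) x := by
    intro τ hτ e x h I
    exact ContinuousAt.comp (g := fun z => τ e z I) (hτ.1 e x h I).continuousAt
      (e.continuousAt h.2)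
  have hprop : ∀ e x, At e x → ∀ I J, τ₀ e (e x) I * τ₁ e (e x) J =
      τ₀ e (e x) J * τ₁ e (e x) I := by
    intro e x h I J
    refine eq_of_dense (x := x) (g := fun y => τ₀ e (e y) I * τ₁ e (e y) J)
      (h := fun y => τ₀ e (e y) J * τ₁ e (e y) I) hΩ
      ((hcont hτ₀ h I).mul (hcont hτ₁ h J)) ((hcont hτ₀ h J).mul (hcont hτ₁ h I)) ?_
    filter_upwards [e.open_source.mem_nhds h.2] with y hy hyΩ
    obtain ⟨z, rfl, hz⟩ := hyΩ
    rw [hτ₀e e z ⟨h.1, hy⟩ hz, hτ₀e e z ⟨h.1, hy⟩ hz, hτ₁e e z ⟨h.1, hy⟩ hz,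
      hτ₁e e z ⟨h.1, hy⟩ hz]
    ring
  obtain ⟨I, hI⟩ := hT0 e z₂ he hsub
  have hI0 : τ₀ e (e (j z₂)) I ≠ 0 := by
    rw [hτ₀e e z₂ he hz₂]
    exact mul_ne_zero h0 hI
  have h1 := hX q τ₀ τ₁ hτ₀ hτ₁ hprop I hI0
  have hjh : ∀ z, HolM (Cm n) (Cm n) j z := fun z => hj.1 z
  have hfc : Continuous f := hf.continuous
  have hjc : Continuous j := hj.1.continuous
  have h𝒢c : IsClosed (⋃₀ 𝒢) := by
    rw [sUnion_eq_biUnion]
    exact h𝒢.1.isClosed_biUnion fun G hG => (h𝒢.2.1 G hG).1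
  have h2 : (fun z => σ₁ (f z) / σ₀ (f z)) =ᶠ[𝓝 z₂]
      fun z => τ₁ e (e (j z)) I / τ₀ e (e (j z)) I := by
    have h3 : ∀ᶠ z in 𝓝 z₂, τ₀ e (e (j z)) I ≠ 0 :=
      (ContinuousAt.comp (g := fun y => τ₀ e (e y) I) (f := j) (hcont hτ₀ he I)
        hjc.continuousAt).eventually_ne hI0
    filter_upwards [h3, (e.open_source.preimage hjc).mem_nhds he.2,
      (h𝒢c.isOpen_compl.preimage hfc).mem_nhds hz₂] with z h4 h5 h6
    rw [hτ₀e e z ⟨he.1, h5⟩ h6] at h4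
    rw [hτ₀e e z ⟨he.1, h5⟩ h6, hτ₁e e z ⟨he.1, h5⟩ h6,
      mul_div_mul_right _ _ (right_ne_zero_of_mul h4)]
  have h3 : dif (Cm n) (fun z => σ₁ (f z) / σ₀ (f z)) z₂ =
      dif (Cm n) (fun z => τ₁ e (e (j z)) I / τ₀ e (e (j z)) I) z₂ := dV_congr h2
  have h4 : ContDiffAt ℂ ω (fun z => τ₁ e z I / τ₀ e z I) (e (j z₂)) := by
    have h5 : ContDiffAt ℂ ω (fun z => τ₁ e z I) (e (j z₂)) := (hτ₁.1 e _ he I).contDiffAt
    have h6 : ContDiffAt ℂ ω (fun z => τ₀ e z I) (e (j z₂)) := (hτ₀.1 e _ he I).contDiffAt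
    exact h5.div h6 hI0
  have h5 := dV_comp_contDiff (G := fun z => τ₁ e z I / τ₀ e z I) (v := fun z => e (j z)) h4
    (holV_ej hjh he)
  rw [h3, dif_eq_dV, h5]
  exact h1

end Good

/-- what the analysis gives: the ratios of the sections `s b` and of proportional tensors. -/
def Ana (n N : ℕ) (X : Type) [TopologicalSpace X] [ChartedSpace (Cm n) X] (s : Fin N → X → ℂ)
    (R : Set X) : Prop :=
  IsOpen R ∧ Dense R ∧ (∀ x ∈ R, ∃ b, s b x ≠ 0) ∧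
    ∀ (e : Chart n X) (x : X), At e x → x ∈ R → ∀ b₀, s b₀ x ≠ 0 → ∀ v : Cm n,
      (∀ b, fderiv ℂ (fun z => s b (e.symm z) / s b₀ (e.symm z)) (e x) v = 0) →
      ∀ (q : ℕ) (τ₀ τ₁ : Ten n q X), IsTen q 0 τ₀ → IsTen q 0 τ₁ →
        (∀ e x, At e x → ∀ I J, τ₀ e (e x) I * τ₁ e (e x) J = τ₀ e (e x) J * τ₁ e (e x) I) →
        ∀ I, τ₀ e (e x) I ≠ 0 → fderiv ℂ (fun z => τ₁ e z I / τ₀ e z I) (e x) v = 0

/-- the analysis, for `m K_X = M + D`, `k M - D` effective -/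
theorem ana_of (hXB : XPartB) (hMA : MetricPartA) (hMZ : MetricPartZ) (hD : DegPart) {n : ℕ}
    {X : Type} [TopologicalSpace X] [ChartedSpace (Cm n) X] [IsManifold 𝓘(ℂ, Cm n) ω X]
    [T2Space X] [CompactSpace X] [ConnectedSpace X] {w : FormM n X} (hw : IsKahler w) {m k N : ℕ}
    (hm : 0 < m) {s : Fin N → X → ℂ} {S : X → ℂ} (hs : IsMovFix (Cm n) m k s S)
    (hS : ∃ x, S x ≠ 0) : ∃ R, Ana n N X s R := by
  have hcan := Vale.Agent.P272.S2B.isCanonical_log_det hw.toIsHermitian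
  set φ : Chart n X → Cm n → ℝ := fun e z => Real.log (w e z).det.re with hφ
  have hpl := fun b => mf_pluri hs b
  obtain ⟨hQs, C, hC⟩ := hMA n X w hw φ hcan m N hm s hpl
  obtain ⟨θ, hθc, hθ0, hθQ, hker⟩ := hMZ n X φ hcan m k N hm s S hs hS
  have hdeg := fun χ hχ => hD n X φ hcan m k N hm s S hs hS θ hθc hθQ χ hχ
  obtain ⟨ν, R, hRo, hRd, hRb, hmax, hRR⟩ := exists_maxB hpl hker hθc (dense_ne hs hS) inferInstance
  refine ⟨R, hRo, hRd, hRb, ?_⟩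
  intro e x he hxR b₀ hb₀ v hv q τ₀ τ₁ hτ₀ hτ₁ hprop I hI
  refine hXB n q X w hw φ hcan (Qn φ m s) hQs (fun x => ?_) m hm C hC θ w hθc
    (INT.IsKahler.isClosedForm hw) hθ0 (fun e x h => (hw.posDef e x h).posSemidef) ν hmax
    ((1 + k) * n) (numer_bound hw hθc hθ0 hdeg) τ₀ τ₁ hτ₀ hτ₁ hprop e x he ?_ I hI
    (hRR e x he hxR) (Matrix.PosDef.posSemidef_add (hθ0 e x he) (hw.posDef e x he)) v
    ((hker e x he b₀ hb₀ v).2 hv)
  · exact mul_nonneg (Finset.sum_nonneg fun b _ => by positivity) (Real.exp_pos _).le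
  · refine mul_pos ?_ (Real.exp_pos _)
    refine Finset.sum_pos' (fun b _ => by positivity) ⟨b₀, Finset.mem_univ _, ?_⟩
    have := norm_pos_iff.2 hb₀
    positivity

/-- the Kodaira dimension is computed by the sections `s b` -/
theorem kod_of_ana (hT : TensorPart) {n : ℕ} {X : Type}
    [TopologicalSpace X] [ChartedSpace (Cm n) X] [IsManifold 𝓘(ℂ, Cm n) ω X]
    [PreconnectedSpace X] {m N : ℕ} {s : Fin N → X → ℂ} (hs : ∀ b, IsPluri (n := n) m (s b))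
    {R : Set X} (hR : Ana n N X s R) {m₁ j : ℕ}
    {t : Fin (j + 1) → X → ℂ} (ht : ∀ b, IsPluri (n := n) m₁ (t b))
    (hne : (Ind (n := n) 0 t).Nonempty) :
    ∃ (x : X) (b₀ : Fin N) (c : Fin j → Fin N), s b₀ x ≠ 0 ∧
      LinearIndependent ℂ fun b => al (n := n) s b₀ x (c b) := by
  have hod := ind_open_dense (n := n) (κ := 0) (s := t)
    (by simp) (fun C hC => (zero_poles C hC).elim) ht hne
  obtain ⟨x, hxR, hxI⟩ := hod.2.inter_open_nonempty R hR.1 (by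
    obtain ⟨y, -⟩ := hne
    have : Nonempty X := ⟨y⟩
    exact hR.2.1.nonempty)
  obtain ⟨b₀, h0⟩ := hR.2.2.1 x hxR
  have he : At (chartAt (Cm n) x) x := ⟨chart_mem_atlas (Cm n) x, mem_chart_source (Cm n) x⟩
  have hkey : ∀ v, (∀ b, al (n := n) s b₀ x b v = 0) → ∀ b : Fin j,
      dif (Cm n) (fun w => t b.succ w / t 0 w) x v = 0 := by
    intro v hv b
    refine const_of_ten (Z := X) (Y := X) (j := id) (f := id) (𝒢 := ∅) (m := m₁) (k := 0)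
      (σ₀ := t 0) (σ₁ := t b.succ) (z₂ := x) (e := chartAt (Cm n) x) hT
      (isBigOpen_id n X) contMDiff_id (isDivisorial_id n X) ?_ (fun G hG => (hG rfl).elim)
      (ht 0) (ht b.succ) ?_ ?_ hxI.2.1 he ?_
    · intro G
      simp only [Pi.zero_apply, Nat.cast_zero]
      exact mul_nonneg (Nat.cast_nonneg _) (orbBase'_nonneg G)
    · simp
    · intro w
      refine ⟨w, ?_⟩
      show mfderiv 𝓘(ℂ, Cm n) 𝓘(ℂ, Cm n) id x w = w
      rw [mfderiv_id]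
      rfl
    · intro q τ₀ τ₁ h1 h2 h3 I hI
      refine hR.2.2.2 _ x he hxR b₀ h0 _ (fun b => ?_) q τ₀ τ₁ h1 h2 h3 I hI
      rw [← hv b, al_apply hs he h0 b v]
      rfl
  have h1 := li_card_le (α := al (n := n) s b₀ x) hkey hxI.2.2
  rw [Fintype.card_fin] at h1
  obtain ⟨c, hc⟩ := exists_li_sub h1
  exact ⟨x, b₀, c, h0, hc⟩

end Vale.Agent.P281.H713.SB
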