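import Vale.Agent.P281.H713.SB.S3

/-! P281, theorem SB, main part: the inequality from the analysis on `X` and `F`. -/

open scoped Manifold ContDiff Topology ComplexOrder
open Set Filter Metric Vale.Agent.P281.J Vale.Agent.P272.K

noncomputable section

namespace Vale.Agent.P281.H713.SB

open Vale.Agent.P281 Vale.Agent.P281.MF Vale.Agent.P281.ISO Vale.Agent.P299.D
open Vale.Agent.P281.H713.SA

set_option linter.unusedSectionVars false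

/-- the inequality, if the analysis applies to `X` and `F` -/
theorem main_ana (hT : TensorPart) {n p d : ℕ} {X Z Y F : Type}
    [TopologicalSpace X] [ConnectedSpace X]
    [ChartedSpace (Cm n) X] [IsManifold 𝓘(ℂ, Cm n) ω X]
    [TopologicalSpace Z] [ChartedSpace (Cm n) Z] [IsManifold 𝓘(ℂ, Cm n) ω Z]
    [TopologicalSpace Y] [ConnectedSpace Y]
    [ChartedSpace (Cm p) Y] [IsManifold 𝓘(ℂ, Cm p) ω Y]
    [TopologicalSpace F] [ConnectedSpace F]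
    [ChartedSpace (Cm d) F] [IsManifold 𝓘(ℂ, Cm d) ω F]
    {m N : ℕ} (hm : 0 < m) {s : Fin N → X → ℂ} (hs : ∀ b, IsPluri (n := n) m (s b))
    {R : Set X} (hR : Ana n N X s R)
    {j : Z → X} (hj : J.IsBigOpen (Cm n) j) {f : Z → Y}
    (hf : ContMDiff 𝓘(ℂ, Cm n) 𝓘(ℂ, Cm p) ω f)
    {𝒢 : Set (Set Y)} (h𝒢 : J.IsDivisorial (Cm n) (Cm p) f 𝒢)
    (hbase : ∀ G, J.orbBase' (Cm n) (Cm p) f 0 G ≠ 0 → G ∈ 𝒢)
    {i : F → Z} (hi : IsSmoothFibre (Cm n) (Cm p) (Cm d) f i)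
    {G₀ : F → ℂ} (hG₀ : ∀ t, G₀ t ≠ 0)
    (hsFs : ∀ b, IsPluri (n := d) m (fun t => s b (j (i t)) * G₀ t))
    {RF : Set F} (hRF : Ana d N F (fun b t => s b (j (i t)) * G₀ t) RF) :
    J.kod (Cm d) (fun (C : Set F) x g => J.IsLocalEq (Cm d) C g x) 0 +
      J.kod (Cm p) (fun (G : Set Y) y g => J.IsLocalEq (Cm p) G g y)
        (J.orbBase' (Cm n) (Cm p) f 0) ≤
      J.kod (Cm n) (fun (D : Set X) x g => J.IsLocalEq (Cm n) D g x) 0 := by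
  classical
  rw [JB.kod_eq, JB.kod_eq, JB.kod_eq]
  refine kod_add_le fun j₁ j₂ h1 h2 => ?_
  obtain ⟨m₁, k₁, t, t₀, hm₁, hk₁, ht, -, ht0, htl⟩ := h1
  obtain ⟨m₂, k, σ, y₀, hm₂, hk, hσ, hky₀, hσ0, hσl⟩ := h2
  -- the boundary of `Y`
  have hkG : ∀ G, k G ≠ 0 → G ∈ 𝒢 := by
    intro G hG
    refine hbase G fun h0 => ?_
    have h3 := hk G
    rw [h0, mul_zero] at h3
    exact hG (by exact_mod_cast h3)
  have hkfin : {G | k G ≠ 0}.Finite := h𝒢.1.subset fun G hG => hkG G hG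
  have hkpr : ∀ G, k G ≠ 0 → IsPrimeDivisor (Cm p) G := fun G hG => h𝒢.2.1 G (hkG G hG)
  have hy₀ : ∀ G, k G ≠ 0 → y₀ ∉ G := by
    intro G hG hy
    obtain ⟨g, hg, hg0⟩ := hky₀ G hG
    exact hg0 (IsLocalEq.mem_iff hg |>.1 hy)
  have hodY := ind_open_dense (n := p) (κ := k) (s := σ) hkfin hkpr hσ ⟨y₀, hy₀, hσ0, hσl⟩
  have h𝒢od := dense_compl_finite (X := Y) h𝒢.1 (fun G hG => (h𝒢.2.1 G hG).1) (fun G hG => by
    rw [dense_iff_inter_open]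
    intro U hU hUne
    obtain ⟨x, hxU, hxD⟩ := IsLocalEq.exists_notMem (h𝒢.2.1 G hG).2.1 hU hUne
    exact ⟨x, hxU, hxD⟩)
  -- the fibre
  have hk₁0 : k₁ = 0 := by
    funext C
    have h3 := hk₁ C
    simp only [Pi.zero_apply, mul_zero, Nat.cast_eq_zero] at h3
    exact h3
  subst hk₁0
  have hjh : ∀ z, HolM (Cm n) (Cm n) j z := fun z => hj.1 z
  have hfh : ∀ z, HolM (Cm n) (Cm p) f z := fun z => hf z
  have hih : ∀ z, HolM (Cm d) (Cm n) i z := fun z => hi.hol z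
  set sF : Fin N → F → ℂ := fun b t => s b (j (i t)) * G₀ t with hsF
  have hsF0 : ∀ b t, sF b t ≠ 0 ↔ s b (j (i t)) ≠ 0 := by
    intro b t
    simp only [hsF]
    exact ⟨fun h => left_ne_zero_of_mul h, fun h => mul_ne_zero h (hG₀ t)⟩
  have hsFr : ∀ b b' t, sF b t / sF b' t = s b (j (i t)) / s b' (j (i t)) := by
    intro b b' t
    simp only [hsF]
    rw [mul_div_mul_right _ _ (hG₀ t)]
  obtain ⟨t₃, b₀, c, hb₀, hcl⟩ := kod_of_ana hT hsFs hRF ht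
    ⟨t₀, fun C hC => (zero_poles C hC).elim, ht0, htl⟩
  -- the point `z₁`
  set z₁ : Z := i t₃ with hz₁
  have hb₀' : s b₀ (j z₁) ≠ 0 := (hsF0 b₀ t₃).1 hb₀
  have hrat : ∀ b b' x, s b' x ≠ 0 → HolV (Cm n) (fun w => s b w / s b' w) x := fun b b' x h =>
    (secAt_pluri (hs b) x).div_holV (secAt_pluri (hs b') x) h
  set u : Fin j₁ → Z → ℂ := fun b z => s (c b) (j z) / s b₀ (j z) with hu
  have huh : ∀ b z, s b₀ (j z) ≠ 0 → HolV (Cm n) (u b) z := fun b z h =>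
    HolV.comp (h := fun w => s (c b) w / s b₀ w) (hrat (c b) b₀ (j z) h) (hjh z)
  set ψ := chartAt (Cm p) (f z₁) with hψ
  have hy₁ : f z₁ ∈ ψ.source := mem_chart_source (Cm p) (f z₁)
  have hψf : ∀ z, f z ∈ ψ.source → HolV (Cm n) (fun z => ψ (f z)) z := fun z h =>
    HolV.comp (h := (ψ : Y → Cm p)) (HolV.chart h) (hfh z)
  have hψd : ∀ z, f z ∈ ψ.source → ∀ ξ, dV (Cm n) (fun z => ψ (f z)) z ξ =
      dV (Cm p) (ψ : Y → Cm p) (f z) (dM (Cm n) (Cm p) f z ξ) := by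
    intro z h ξ
    have h3 := dV_comp (h := (ψ : Y → Cm p)) (HolV.chart h) (hfh z)
    exact congrArg (fun T : Cm n →L[ℂ] Cm p => T ξ) h3
  set h : Fin j₁ ⊕ Fin p → Z → ℂ := Sum.elim u fun a z => ψ (f z) a with hh
  have hhol : ∀ l, HolV (Cm n) (h l) z₁ := by
    rintro (b | a)
    · exact huh b z₁ hb₀'
    · exact (hψf z₁ hy₁).eval a
  -- linear independence at `z₁`
  have hli₁ : LinearIndependent ℂ (fun l => dif (Cm n) (h l) z₁) := by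
    refine JB.linearIndependent_of_surjective fun y => ?_
    obtain ⟨η₀, hη₀⟩ := surj_of_isUnit (isUnit_dV_chart (E := Cm p) hy₁) fun a => y (Sum.inr a)
    obtain ⟨ξ₀, hξ₀⟩ : ∃ ξ₀ : Cm n, dM (Cm n) (Cm p) f z₁ ξ₀ = η₀ := hi.submersive t₃ η₀
    have hcs := JB.surjective_of_linearIndependent hcl
    obtain ⟨ζ, hζ⟩ := hcs fun b => y (Sum.inl b) - dif (Cm n) (u b) z₁ ξ₀
    refine ⟨ξ₀ + dM (Cm d) (Cm n) i t₃ ζ, ?_⟩
    funext l
    rcases l with b | a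
    · show dif (Cm n) (u b) z₁ (ξ₀ + dM (Cm d) (Cm n) i t₃ ζ) = y (Sum.inl b)
      rw [map_add]
      have h3 : dif (Cm d) (fun t => u b (i t)) t₃ =
          (dif (Cm n) (u b) (i t₃)).comp (dM (Cm d) (Cm n) i t₃) :=
        dif_comp (huh b z₁ hb₀') (hih t₃)
      have h4 : (fun t => u b (i t)) = fun t => sF (c b) t / sF b₀ t := by
        funext t
        exact (hsFr (c b) b₀ t).symm
      have h5 := congrArg (fun T : Cm d →L[ℂ] ℂ => T ζ) h3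
      simp only [ContinuousLinearMap.comp_apply] at h5
      rw [← h5, h4]
      have h6 := congrFun hζ b
      have h7 : dif (Cm d) (fun t => sF (c b) t / sF b₀ t) t₃ ζ =
        y (Sum.inl b) - dif (Cm n) (u b) z₁ ξ₀ := h6
      rw [h7]
      ring
    · show dif (Cm n) (fun z => ψ (f z) a) z₁ (ξ₀ + dM (Cm d) (Cm n) i t₃ ζ) = y (Sum.inr a)
      have h3 : dif (Cm n) (fun z => ψ (f z) a) z₁ (ξ₀ + dM (Cm d) (Cm n) i t₃ ζ) =
          dV (Cm n) (fun z => ψ (f z)) z₁ (ξ₀ + dM (Cm d) (Cm n) i t₃ ζ) a :=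
        (dV_apply (hψf z₁ hy₁) a _).symm
      rw [h3, hψd z₁ hy₁, map_add]
      have h4 : dM (Cm n) (Cm p) f z₁ (dM (Cm d) (Cm n) i t₃ ζ) = 0 := by
        have h5 := mfderiv_comp (I := 𝓘(ℂ, Cm d)) (I' := 𝓘(ℂ, Cm n)) (I'' := 𝓘(ℂ, Cm p))
          (g := f) (f := i) t₃ ((hf (i t₃)).mdifferentiableAt (by simp))
          ((hi.hol t₃).mdifferentiableAt (by simp))
        have h6 : (f ∘ i) = fun _ => f (i t₃) := by
          funext t
          exact hi.const t t₃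
        rw [h6, mfderiv_const] at h5
        exact (congrArg (fun T : Cm d →L[ℂ] Cm p => T ζ) h5).symm
      have h5 : dM (Cm n) (Cm p) f z₁ ξ₀ = η₀ := hξ₀
      rw [h4, h5, add_zero, hη₀]
  -- the open set
  have hev : ∀ᶠ z in 𝓝 z₁, LinearIndependent ℂ (fun l => dif (Cm n) (h l) z) ∧
      s b₀ (j z) ≠ 0 ∧ f z ∈ ψ.source := by
    filter_upwards [linearIndependent_dif_eventually hhol hli₁,
      (hjh z₁).continuousAt.eventually ((secAt_pluri (hs b₀) (j z₁)).ev_ne hb₀'),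
      (hfh z₁).continuousAt.eventually (ψ.open_source.mem_nhds hy₁)] with z h3 h4 h5
    exact ⟨h3, h4, h5⟩
  obtain ⟨O, hO, hOo, hzO⟩ := eventually_nhds_iff.1 hev
  -- the set `R`
  obtain ⟨hRo, hRd, hRb, hRX⟩ := hR
  have hjRd : Dense (j ⁻¹' R) := hRd.preimage hj.2.1.isOpenMap
  obtain ⟨z', hz'O, hz'R⟩ := hjRd.inter_open_nonempty O hOo ⟨z₁, hzO⟩
  have hsurj : ∀ z ∈ O, ∀ (a : Fin j₁ → ℂ) (η : Cm p), ∃ ξ, (∀ b, dif (Cm n) (u b) z ξ = a b) ∧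
      dM (Cm n) (Cm p) f z ξ = η := by
    intro z hz a η
    obtain ⟨h3, -, h5⟩ := hO z hz
    obtain ⟨ξ, hξ⟩ := JB.surjective_of_linearIndependent h3
      (Sum.elim a (dV (Cm p) (ψ : Y → Cm p) (f z) η))
    refine ⟨ξ, fun b => congrFun hξ (Sum.inl b), ?_⟩
    have h6 : dV (Cm n) (fun z => ψ (f z)) z ξ = dV (Cm p) (ψ : Y → Cm p) (f z) η := by
      funext l
      rw [dV_apply (hψf z h5) l]
      exact congrFun hξ (Sum.inr l)
    rw [hψd z h5] at h6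
    obtain ⟨A, hA⟩ := dV_chart_leftInv (E := Cm p) h5
    have h7 : ∀ v, A (dV (Cm p) (ψ : Y → Cm p) (f z) v) = v := fun v =>
      congrArg (fun T : Cm p →L[ℂ] Cm p => T v) hA
    rw [← h7 (dM (Cm n) (Cm p) f z ξ), h6, h7]
  have hsub : ∀ z ∈ O, Function.Surjective (dM (Cm n) (Cm p) f z) := fun z hz η => by
    obtain ⟨ξ, -, h3⟩ := hsurj z hz 0 η
    exact ⟨ξ, h3⟩
  have hO' : O ∩ j ⁻¹' R ∈ 𝓝 z' := (hOo.inter (hRo.preimage hj.1.continuous)).mem_nhds ⟨hz'O, hz'R⟩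
  have himg : f '' (O ∩ j ⁻¹' R) ∈ 𝓝 (f z') := nhds_le_map (hfh z') (hsub z' hz'O) (image_mem_map hO')
  have hYd : Dense (Ind (n := p) k σ ∩ {y | ∀ G ∈ 𝒢, y ∉ G}) :=
    hodY.2.inter_of_isOpen_left h𝒢od.2 hodY.1
  obtain ⟨y₂, hy₂I, hy₂⟩ := hYd.inter_nhds_nonempty himg
  obtain ⟨z₂, ⟨hz₂O, hz₂R⟩, rfl⟩ := hy₂
  obtain ⟨⟨hkz, hσz, hσlz⟩, h𝒢z⟩ := hy₂I
  have hb₂ : s b₀ (j z₂) ≠ 0 := (hO z₂ hz₂O).2.1
  have he : At (chartAt (Cm n) (j z₂)) (j z₂) :=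
    ⟨chart_mem_atlas (Cm n) (j z₂), mem_chart_source (Cm n) (j z₂)⟩
  have hσh : ∀ b : Fin j₂, HolV (Cm p) (fun w => σ b.succ w / σ 0 w) (f z₂) := fun b =>
    (secAt_of hkpr (hσ b.succ) hkz).div_holV (secAt_of hkpr (hσ 0) hkz) hσz
  set α : Fin N → (Cm n →L[ℂ] ℂ) := fun b => dif (Cm n) (fun z => s b (j z) / s b₀ (j z)) z₂
    with hα
  have hαj : ∀ b, α b = (al (n := n) s b₀ (j z₂) b).comp (dM (Cm n) (Cm n) j z₂) := fun b =>
    dif_comp (g := fun w => s b w / s b₀ w) (hrat b b₀ (j z₂) hb₂) (hjh z₂)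
  have hkey : ∀ v, (∀ b, α b v = 0) → ∀ b : Fin j₂,
      dif (Cm n) (fun z => σ b.succ (f z) / σ 0 (f z)) z₂ v = 0 := by
    intro v hv b
    refine const_of_ten (j := j) (f := f) (𝒢 := 𝒢) (m := m₂) (k := k)
      (σ₀ := σ 0) (σ₁ := σ b.succ) (z₂ := z₂) (e := chartAt (Cm n) (j z₂)) hT
      hj hf h𝒢 (fun G => (hk G).le) hkG (hσ 0) (hσ b.succ) ?_ (hsub z₂ hz₂O) hσz he ?_
    · rintro ⟨G, hG, hGz⟩
      exact h𝒢z G hG hGz
    · intro q τ₀ τ₁ h1 h2 h3 I hI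
      refine hRX _ (j z₂) he hz₂R b₀ hb₂ _ (fun b => ?_) q τ₀ τ₁ h1 h2 h3 I hI
      have h3 := hv b
      rw [hαj] at h3
      have h4 := al_apply hs he hb₂ b (dM (Cm n) (Cm n) j z₂ v)
      have h5 : al (n := n) s b₀ (j z₂) b (dM (Cm n) (Cm n) j z₂ v) = 0 := h3
      rw [h5] at h4
      have h6 := dV_comp (h := (chartAt (Cm n) (j z₂) : X → Cm n)) (holV_at he) (hjh z₂)
      have h7 := congrArg (fun T : Cm n →L[ℂ] Cm n => T v) h6
      simp only [ContinuousLinearMap.comp_apply] at h7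
      rw [h7]
      exact h4.symm
  -- the linearly independent family
  set β : Fin j₁ ⊕ Fin j₂ → (Cm n →L[ℂ] ℂ) := Sum.elim (fun b => dif (Cm n) (u b) z₂)
    fun b => dif (Cm n) (fun z => σ b.succ (f z) / σ 0 (f z)) z₂ with hβ
  have hβl : LinearIndependent ℂ β := by
    refine JB.linearIndependent_of_surjective fun y => ?_
    obtain ⟨η, hη⟩ := JB.surjective_of_linearIndependent hσlz fun b => y (Sum.inr b)
    obtain ⟨ξ, hξ1, hξ2⟩ := hsurj z₂ hz₂O (fun b => y (Sum.inl b)) η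
    refine ⟨ξ, ?_⟩
    funext l
    rcases l with b | b
    · exact hξ1 b
    · have h3 : dif (Cm n) (fun z => σ b.succ (f z) / σ 0 (f z)) z₂ =
          (dif (Cm p) (fun w => σ b.succ w / σ 0 w) (f z₂)).comp (dM (Cm n) (Cm p) f z₂) :=
        dif_comp (g := fun w => σ b.succ w / σ 0 w) (hσh b) (hfh z₂)
      show dif (Cm n) (fun z => σ b.succ (f z) / σ 0 (f z)) z₂ ξ = y (Sum.inr b)
      rw [h3, ContinuousLinearMap.comp_apply, hξ2]
      exact congrFun hη b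
  have h3 := li_card_le (α := α) (β := β) (fun v hv => by
    rintro (b | b)
    · exact hv (c b)
    · exact hkey v hv b) hβl
  have h4 : α = fun b => (al (n := n) s b₀ (j z₂) b).comp (dM (Cm n) (Cm n) j z₂) := funext hαj
  rw [Fintype.card_sum, Fintype.card_fin, Fintype.card_fin, h4, finrank_span_comp _
    (surj_of_isUnit (isUnit_of_det_ne (det_ne_of_inj (hj.2.2.1 z₂))))] at h3
  obtain ⟨c', hc'⟩ := exists_li_sub h3
  refine ⟨m, 0, Fin.cons (s b₀) fun b => s (c' b), j z₂, hm, by simp, ?_, by simp, hb₂, hc'⟩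
  intro b
  refine Fin.cases ?_ (fun b => ?_) b
  · exact hs b₀
  · exact hs (c' b)

/-- pull-back of the data to open subsets -/
theorem restr_open (hR : RestrPartB) {n : ℕ} {X Z : Type} [TopologicalSpace X]
    [ChartedSpace (Cm n) X] [IsManifold 𝓘(ℂ, Cm n) ω X] [TopologicalSpace Z]
    [ChartedSpace (Cm n) Z] [IsManifold 𝓘(ℂ, Cm n) ω Z] {j : Z → X}
    (hj : J.IsBigOpen (Cm n) j) : ∃ G : Z → ℂ, (∀ t, G t ≠ 0) ∧
      ∀ t₀, ∃ η : Z → ℂ, J.HolAt (Cm n) η t₀ ∧ η t₀ ≠ 0 ∧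
      ∀ᶠ t in 𝓝 t₀, ContinuousLinearMap.det
        (mfderiv 𝓘(ℂ, Cm n) 𝓘(ℂ, Cm n) (chartAt (Cm n) (j t₀)) (j t) : Cm n →L[ℂ] Cm n) * G t =
      η t * ContinuousLinearMap.det
        (mfderiv 𝓘(ℂ, Cm n) 𝓘(ℂ, Cm n) (chartAt (Cm n) t₀) t : Cm n →L[ℂ] Cm n) :=
  hR n 0 n (Nat.zero_add n).symm X (Cm 0) Z (fun _ => 0) contMDiff_const j
    ⟨hj.1, hj.2.2.1, fun _ _ => rfl, fun _ y => ⟨0, Subsingleton.elim (α := Cm 0) _ _⟩⟩

/-- **Main part**, theorem SB. -/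
theorem main_ofB (hXB : XPartB) (hMA : MetricPartA) (hMZ : MetricPartZ) (hD : DegPart)
    (hR : RestrPartB) (hP : PullPart) (hT : TensorPart) : MainPartB := by
  intro n p d hnpd X Z Y F _ _ _ _ _ _ _ _ _ _ _ _ _ _ _ _ _ _ _ _ χ hχ m k N hm s S hs j hj f
    hf 𝒢 h𝒢 hbase i hi hSF
  obtain ⟨t₀, ht₀⟩ := hSF
  obtain ⟨RX, hRX⟩ := ana_of hXB hMA hMZ hD hχ hm hs ⟨_, ht₀⟩
  obtain ⟨G₁, hG₁, hG₁e⟩ := restr_open hR hj
  obtain ⟨G₂, hG₂, hG₂e⟩ := hR n p d hnpd Z Y F f hf i hi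
  have hZ := mf_restr hs (fun z => hj.1 z) hG₁e
  have hF := mf_restr hZ (fun t => hi.hol t) hG₂e
  have hji : ContMDiff 𝓘(ℂ, Cm d) 𝓘(ℂ, Cm n) ω (fun t => j (i t)) := hj.1.comp hi.hol
  have hjii : ∀ t, Function.Injective (mfderiv 𝓘(ℂ, Cm d) 𝓘(ℂ, Cm n) (fun t => j (i t)) t) := by
    intro t
    have h3 := mfderiv_comp (I := 𝓘(ℂ, Cm d)) (I' := 𝓘(ℂ, Cm n)) (I'' := 𝓘(ℂ, Cm n))
      (g := j) (f := i) t ((hj.1 (i t)).mdifferentiableAt (by simp))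
      ((hi.hol t).mdifferentiableAt (by simp))
    have h4 : mfderiv 𝓘(ℂ, Cm d) 𝓘(ℂ, Cm n) (fun t => j (i t)) t = _ := h3
    rw [h4]
    exact (hj.2.2.1 (i t)).comp (hi.immersive t)
  obtain ⟨χF, hχF⟩ := hP n d X F (fun t => j (i t)) hji hjii χ hχ
  have hsF : (fun b t => s b (j (i t)) * (G₁ (i t) ^ m * G₂ t ^ m)) =
      fun b t => s b (j (i t)) * G₁ (i t) ^ m * G₂ t ^ m := by
    funext b t
    ring
  obtain ⟨RF, hRF⟩ := ana_of hXB hMA hMZ hD hχF hm hF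
    ⟨t₀, mul_ne_zero (mul_ne_zero ht₀ (pow_ne_zero _ (hG₁ _))) (pow_ne_zero _ (hG₂ _))⟩
  rw [← hsF] at hRF
  refine main_ana (G₀ := fun t => G₁ (i t) ^ m * G₂ t ^ m) hT hm (fun b => mf_pluri hs b) hRX hj hf
    h𝒢 hbase hi (fun t => mul_ne_zero (pow_ne_zero _ (hG₁ _)) (pow_ne_zero _ (hG₂ _)))
    (fun b => ?_) hRF
  have h5 := mf_pluri hF b
  have h6 : (fun t => s b (j (i t)) * (G₁ (i t) ^ m * G₂ t ^ m)) =
      fun t => s b (j (i t)) * G₁ (i t) ^ m * G₂ t ^ m := congrFun hsF b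
  rw [h6]
  exact h5

end Vale.Agent.P281.H713.SB
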